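import Vale.Agent.P022.H693.Ring
import Vale.Agent.P022.H132.L3.Z

namespace Vale.Agent.P022.H693

/-- helper132's literal of the ring row. -/
theorem ringMain : Vale.Agent.P022.H132.Z.RingMain := by
  intro T _ tf x y A B C hrel nil faith E _ _ _ X Y Z a b c hX ha hc hZ hE ε hε
  exact ring_main T tf x y A B C
    (fun k hk => let h := hrel k hk; ⟨h.r1, h.r2, h.r3, h.r4, h.r5⟩) nil faith E X Y Z a b c
    hX ha hc hZ ⟨hE.r1, hE.r2, hE.r3, hE.r4, hE.r5⟩ ε hε

end Vale.Agent.P022.H693
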