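import Mathlib

namespace Vale.Agent.P022.H693

open PowerSeries Finset

/-- `ℤ_2⟦C⟧⟦x⟧` -/
abbrev R2 := PowerSeries (PowerSeries ℤ_[2])
/-- `ℤ_2⟦C⟧⟦x⟧⟦A⟧` -/
abbrev R3 := PowerSeries R2
/-- `ℤ_2⟦C⟧⟦x⟧⟦A⟧⟦w⟧` -/
abbrev R4 := PowerSeries R3

/-- coefficient of `x ^ i A ^ j C ^ l` -/
noncomputable def cf (g : R3) (i j l : ℕ) : ℤ_[2] := coeff l (coeff i (coeff j g))

/-- `2 ^ b` times the coefficient of `x ^ a A ^ b` after `C = A x / 2`. -/
noncomputable def EE (g : R3) (a b : ℕ) : ℤ_[2] :=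
  ∑ j ∈ range (b + 1), if b ≤ a + j then 2 ^ j * cf g (a + j - b) j (b - j) else 0

theorem EE_bd (g : R3) (i j l : ℕ) (h : i = 0 ∨ j = 0) (hE : EE g (i + l) (j + l) = 0) :
    ∑ r ∈ range (l + 1), 2 ^ r * cf g (i + r) (j + r) (l - r) = 0 := by
  unfold EE at hE
  have e : j + l + 1 = j + (l + 1) := by ring
  rw [e, Finset.sum_range_add] at hE
  have h1 : ∑ x ∈ range j, (if j + l ≤ i + l + x then
      (2 : ℤ_[2]) ^ x * cf g (i + l + x - (j + l)) x (j + l - x) else 0) = 0 := by
    apply Finset.sum_eq_zero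
    intro x hx
    rw [mem_range] at hx
    rw [if_neg (by omega)]
  rw [h1, zero_add] at hE
  have h2 : ∀ r ∈ range (l + 1), (if j + l ≤ i + l + (j + r) then
      (2 : ℤ_[2]) ^ (j + r) * cf g (i + l + (j + r) - (j + l)) (j + r) (j + l - (j + r)) else 0) =
      2 ^ j * (2 ^ r * cf g (i + r) (j + r) (l - r)) := by
    intro r hr
    rw [mem_range] at hr
    rw [if_pos (by omega)]
    rw [show i + l + (j + r) - (j + l) = i + r by omega, show j + l - (j + r) = l - r by omega]
    ring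
  rw [Finset.sum_congr rfl h2, ← Finset.mul_sum] at hE
  rcases mul_eq_zero.mp hE with h3 | h3
  · exact absurd h3 (pow_ne_zero _ (by norm_num))
  · exact h3

theorem div_lemma (g : R3) (h : ∀ a b, EE g a b = 0) :
    ∃ H : R3, g = (C (C X) * 2 - X * C X) * H := by
  let H : R3 := PowerSeries.mk fun j => PowerSeries.mk fun i => PowerSeries.mk fun l =>
    -∑ r ∈ range (l + 1), 2 ^ r * cf g (i + 1 + r) (j + 1 + r) (l - r)
  have hH : ∀ i j l, coeff l (coeff i (coeff j H)) =
      -∑ r ∈ range (l + 1), 2 ^ r * cf g (i + 1 + r) (j + 1 + r) (l - r) := by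
    intro i j l; simp [H]
  refine ⟨H, ?_⟩
  have key : ∀ i j l, cf g i j l = ∑ r ∈ range (l + 1), 2 ^ r * cf g (i + r) (j + r) (l - r) -
      2 * ∑ r ∈ range l, 2 ^ r * cf g (i + 1 + r) (j + 1 + r) (l - 1 - r) := by
    intro i j l
    rw [Finset.sum_range_succ', Finset.mul_sum]
    have : ∀ r ∈ range l, (2 : ℤ_[2]) ^ (r + 1) * cf g (i + (r + 1)) (j + (r + 1)) (l - (r + 1)) =
        2 * (2 ^ r * cf g (i + 1 + r) (j + 1 + r) (l - 1 - r)) := by
      intro r _
      rw [show i + (r + 1) = i + 1 + r by ring, show j + (r + 1) = j + 1 + r by ring,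
        show l - (r + 1) = l - 1 - r by omega]
      ring
    rw [Finset.sum_congr rfl this]
    simp
  have e2 : ((C (C X) * 2 - X * C X) * H : R3) = 2 * (C (C X) * H) - X * (C X * H) := by ring
  rw [e2]
  ext j i l
  have two : ∀ (F : R3), coeff l (coeff i (coeff j (2 * F))) = 2 * coeff l (coeff i (coeff j F)) := by
    intro F
    rw [two_mul, two_mul, map_add, map_add, map_add]
  rw [map_sub, map_sub, map_sub, two, coeff_C_mul, coeff_C_mul]
  change cf g i j l = _
  rcases l with _ | l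
  · rw [coeff_zero_X_mul, mul_zero, zero_sub]
    rcases j with _ | j
    · rw [coeff_zero_X_mul, map_zero, map_zero, neg_zero]
      have := EE_bd g i 0 0 (Or.inr rfl) (h _ _)
      simpa using this
    · rw [coeff_succ_X_mul, coeff_C_mul]
      rcases i with _ | i
      · rw [coeff_zero_X_mul, map_zero, neg_zero]
        have := EE_bd g 0 (j + 1) 0 (Or.inl rfl) (h _ _)
        simpa using this
      · rw [coeff_succ_X_mul, hH]
        simp
  · rw [coeff_succ_X_mul, hH]
    rcases j with _ | j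
    · rw [coeff_zero_X_mul, map_zero, map_zero, sub_zero]
      rw [key, EE_bd g i 0 (l + 1) (Or.inr rfl) (h _ _)]
      simp
    · rw [coeff_succ_X_mul, coeff_C_mul]
      rcases i with _ | i
      · rw [coeff_zero_X_mul, map_zero, sub_zero]
        rw [key, EE_bd g 0 (j + 1) (l + 1) (Or.inl rfl) (h _ _)]
        simp
      · rw [coeff_succ_X_mul, hH, key]
        simp only [Nat.add_sub_cancel]
        ring

end Vale.Agent.P022.H693
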