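import Vale.Agent.P022.H693.Nil
import Vale.Agent.P022.H693.Div

namespace Vale.Agent.P022.H693

open PowerSeries Finset

/-- `x ^ N g(x, A, C)` modulo `x A = 2 C` and `2 ^ N`. -/
noncomputable def DN (g : R3) (N : ℕ) : R2 :=
  ∑ j ∈ range N, X ^ (N - j) * (C (X ^ j) * (C (C (2 ^ j)) * coeff j g))

theorem coeff_DN (g : R3) (N a b : ℕ) (h : b < N) :
    coeff b (coeff (N + a - b) (DN g N)) = EE g a b := by
  unfold DN EE
  rw [map_sum, map_sum]
  have e : N = (b + 1) + (N - (b + 1)) := by omega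
  conv_lhs => rw [show range N = range ((b + 1) + (N - (b + 1))) by rw [← e]]
  rw [Finset.sum_range_add]
  have h2 : ∑ x ∈ range (N - (b + 1)), coeff b (coeff (N + a - b)
      (X ^ (N - (b + 1 + x)) * (C (X ^ (b + 1 + x)) * (C (C ((2 : ℤ_[2]) ^ (b + 1 + x))) *
        coeff (b + 1 + x) g)))) = 0 := by
    apply Finset.sum_eq_zero
    intro x _
    rw [coeff_X_pow_mul']
    split_ifs
    · rw [coeff_C_mul, coeff_X_pow_mul', if_neg (by omega)]
    · simp
  rw [h2, add_zero]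
  apply Finset.sum_congr rfl
  intro j hj
  rw [mem_range] at hj
  rw [coeff_X_pow_mul']
  by_cases h3 : b ≤ a + j
  · rw [if_pos (by omega), if_pos h3, coeff_C_mul, coeff_X_pow_mul', if_pos (by omega),
      coeff_C_mul, coeff_C_mul]
    unfold cf
    rw [show N + a - b - (N - j) = a + j - b by omega]
  · rw [if_neg (by omega), if_neg h3]
    simp

section ev

variable {S : Type*} [CommRing S] (ψ : ℤ_[2] →+* S) (x A Cc w : S) (M : ℕ)
  (hx : x ^ M = 0) (hA : A ^ M = 0) (hC : Cc ^ M = 0) (hw : w ^ M = 0)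

/-- evaluation of `R2` -/
noncomputable def ev2 : R2 →+* S := evNil (evNil ψ Cc M hC) x M hx

/-- evaluation of `R3` -/
noncomputable def ev3 : R3 →+* S := evNil (ev2 ψ x Cc M hx hC) A M hA

/-- evaluation of `R4` -/
noncomputable def ev4 : R4 →+* S := evNil (ev3 ψ x A Cc M hx hA hC) w M hw

theorem ev2_X : ev2 ψ x Cc M hx hC X = x := evNil_X _ _ _ _

theorem ev2_C (f : PowerSeries ℤ_[2]) : ev2 ψ x Cc M hx hC (C f) = evNil ψ Cc M hC f :=
  evNil_C _ _ _ _ _

theorem ev2_CX : ev2 ψ x Cc M hx hC (C X) = Cc := by rw [ev2_C, evNil_X]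

theorem ev2_CC (a : ℤ_[2]) : ev2 ψ x Cc M hx hC (C (C a)) = ψ a := by rw [ev2_C, evNil_C]

theorem ev3_X : ev3 ψ x A Cc M hx hA hC X = A := evNil_X _ _ _ _

theorem ev3_C (f : R2) : ev3 ψ x A Cc M hx hA hC (C f) = ev2 ψ x Cc M hx hC f :=
  evNil_C _ _ _ _ _

theorem ev4_X : ev4 ψ x A Cc w M hx hA hC hw X = w := evNil_X _ _ _ _

theorem ev4_C (f : R3) : ev4 ψ x A Cc w M hx hA hC hw (C f) = ev3 ψ x A Cc M hx hA hC f :=
  evNil_C _ _ _ _ _

theorem ev3_div (hxA : x * A = 2 * Cc) (g : R3) (h : ∀ a b, EE g a b = 0) :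
    ev3 ψ x A Cc M hx hA hC g = 0 := by
  obtain ⟨H, rfl⟩ := div_lemma g h
  rw [map_mul, map_sub, map_mul, map_mul, ev3_X, ev3_C, ev3_C, ev2_X, ev2_CX, map_ofNat]
  rw [mul_comm A x, hxA]
  ring

theorem ev3_DN (hxA : x * A = 2 * Cc) (N : ℕ) (hN : (2 : S) ^ N = 0) (g : R3) :
    x ^ N * ev3 ψ x A Cc M hx hA hC g = ev2 ψ x Cc M hx hC (DN g N) := by
  have h1 : ev3 ψ x A Cc M hx hA hC g =
      ∑ j ∈ range (M + N), ev2 ψ x Cc M hx hC (coeff j g) * A ^ j :=
    evNil_eq_sum _ _ _ _ g (M + N) (by rw [pow_add, hA, zero_mul])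
  rw [h1, Finset.mul_sum, DN, map_sum]
  symm
  rw [Finset.sum_subset_zero_on_sdiff (s₁ := range N) (s₂ := range (M + N))
    (by intro i hi; rw [mem_range] at hi ⊢; omega) (g := fun j => x ^ N *
      (ev2 ψ x Cc M hx hC (coeff j g) * A ^ j))]
  · intro j hj
    rw [mem_sdiff, mem_range, mem_range] at hj
    have : A ^ j = A ^ N * A ^ (j - N) := by rw [← pow_add]; congr 1; omega
    have h3 : x ^ N * A ^ N = 0 := by rw [← mul_pow, hxA, mul_pow, hN, zero_mul]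
    calc x ^ N * (ev2 ψ x Cc M hx hC (coeff j g) * A ^ j) =
        (x ^ N * A ^ N) * (ev2 ψ x Cc M hx hC (coeff j g) * A ^ (j - N)) := by rw [this]; ring
      _ = 0 := by rw [h3, zero_mul]
  · intro j hj
    rw [mem_range] at hj
    rw [map_mul, map_pow, ev2_X, map_mul, map_mul, map_pow, map_pow, ev2_CX, ev2_CC, map_pow,
      map_ofNat]
    have : x ^ N = x ^ (N - j) * x ^ j := by rw [← pow_add]; congr 1; omega
    calc x ^ (N - j) * (Cc ^ j * (2 ^ j * ev2 ψ x Cc M hx hC (coeff j g))) =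
        x ^ (N - j) * ((2 * Cc) ^ j) * ev2 ψ x Cc M hx hC (coeff j g) := by rw [mul_pow]; ring
      _ = x ^ N * (ev2 ψ x Cc M hx hC (coeff j g) * A ^ j) := by
        rw [← hxA, this, mul_pow]; ring

end ev

end Vale.Agent.P022.H693
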