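import Vale.Agent.P022.H693.Core

namespace Vale.Agent.P022.H693

open PowerSeries Finset

theorem hom_unique {S : Type*} [CommRing S] (n : ℕ) (hn : (2 : S) ^ n = 0) (f g : ℤ_[2] →+* S) :
    f = g := by
  ext a
  have h := PadicInt.appr_spec (p := 2) n a
  rw [Ideal.mem_span_singleton] at h
  obtain ⟨b, hb⟩ := h
  have hb' : a = (a.appr n : ℤ_[2]) + 2 ^ n * b := by
    rw [← sub_eq_iff_eq_add']
    simpa using hb
  rw [hb', map_add, map_add, map_mul, map_mul, map_pow, map_pow, map_ofNat, map_ofNat, hn,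
    zero_mul, zero_mul, map_natCast, map_natCast]

theorem two_pow_q (T : Type*) [CommRing T] (n : ℕ) :
    (2 : T ⧸ Ideal.span {(2 : T) ^ n}) ^ n = 0 := by
  have : (Ideal.Quotient.mk (Ideal.span {(2 : T) ^ n})) (2 ^ n) = 0 :=
    Ideal.Quotient.eq_zero_iff_mem.mpr (Ideal.mem_span_singleton_self _)
  rwa [map_pow, map_ofNat] at this

/-- `ℤ_2 → T / 2 ^ n` -/
noncomputable def psi (T : Type*) [CommRing T] (n : ℕ) :
    ℤ_[2] →+* T ⧸ Ideal.span {(2 : T) ^ n} :=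
  haveI := ringChar.charP (T ⧸ Ideal.span {(2 : T) ^ n})
  (ZMod.castHom (ringChar.dvd (R := T ⧸ Ideal.span {(2 : T) ^ n})
    (by push_cast; exact two_pow_q T n : ((2 ^ n : ℕ) : T ⧸ Ideal.span {(2 : T) ^ n}) = 0))
    (T ⧸ Ideal.span {(2 : T) ^ n})).comp (PadicInt.toZModPow n)

theorem psi_appr (T : Type*) [CommRing T] (n : ℕ) (a : ℤ_[2]) :
    psi T n a = Ideal.Quotient.mk _ ((a.appr n : ℤ) : T) := by
  have h := PadicInt.appr_spec (p := 2) n a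
  rw [Ideal.mem_span_singleton] at h
  obtain ⟨b, hb⟩ := h
  have hb' : a = (a.appr n : ℤ_[2]) + 2 ^ n * b := by
    rw [← sub_eq_iff_eq_add']
    simpa using hb
  conv_lhs => rw [hb']
  rw [map_add, map_mul, map_pow, map_ofNat, two_pow_q, zero_mul, map_natCast, add_zero]
  simp

structure Datum where
  T : Type
  [ring : CommRing T]
  tf : ∀ a : T, 2 * a = 0 → a = 0
  x : T
  A : T
  Cc : T
  w : ℤ
  hw : w ≠ 0
  hw2 : 2 ∣ w
  rel : x * A = 2 * Cc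
  N0 : ℕ
  hx : 2 ∣ x ^ N0
  hA : 2 ∣ A ^ N0
  hC : 2 ∣ Cc ^ N0

attribute [instance] Datum.ring

theorem nil_q {T : Type*} [CommRing T] (a : T) (N0 n : ℕ) (h : 2 ∣ a ^ N0) :
    (Ideal.Quotient.mk (Ideal.span {(2 : T) ^ n}) a) ^ ((N0 + 1) * n) = 0 := by
  rw [← map_pow, Ideal.Quotient.eq_zero_iff_mem, Ideal.mem_span_singleton, pow_mul]
  exact pow_dvd_pow_of_dvd (h.trans (pow_dvd_pow a (by omega))) n

namespace Datum

variable (D : Datum)

abbrev S (n : ℕ) : Type := D.T ⧸ Ideal.span {(2 : D.T) ^ n}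

theorem nx (n : ℕ) : (Ideal.Quotient.mk (Ideal.span {(2 : D.T) ^ n}) D.x) ^ ((D.N0 + 1) * n) = 0 :=
  nil_q _ _ _ D.hx
theorem nA (n : ℕ) : (Ideal.Quotient.mk (Ideal.span {(2 : D.T) ^ n}) D.A) ^ ((D.N0 + 1) * n) = 0 :=
  nil_q _ _ _ D.hA
theorem nC (n : ℕ) : (Ideal.Quotient.mk (Ideal.span {(2 : D.T) ^ n}) D.Cc) ^ ((D.N0 + 1) * n) = 0 :=
  nil_q _ _ _ D.hC
theorem nw (n : ℕ) : (Ideal.Quotient.mk (Ideal.span {(2 : D.T) ^ n}) (D.w : D.T)) ^
    ((D.N0 + 1) * n) = 0 := by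
  rw [← map_pow, Ideal.Quotient.eq_zero_iff_mem, Ideal.mem_span_singleton, pow_mul]
  have h2 : (2 : D.T) ∣ (D.w : D.T) := by
    have := (Int.castRingHom D.T).map_dvd D.hw2
    simpa using this
  exact pow_dvd_pow_of_dvd (h2.trans (dvd_pow_self _ (by omega))) n

noncomputable def e2 (n : ℕ) : R2 →+* D.S n :=
  ev2 (psi D.T n) (Ideal.Quotient.mk _ D.x) (Ideal.Quotient.mk _ D.Cc) ((D.N0 + 1) * n)
    (D.nx n) (D.nC n)

noncomputable def e3 (n : ℕ) : R3 →+* D.S n :=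
  ev3 (psi D.T n) (Ideal.Quotient.mk _ D.x) (Ideal.Quotient.mk _ D.A) (Ideal.Quotient.mk _ D.Cc)
    ((D.N0 + 1) * n) (D.nx n) (D.nA n) (D.nC n)

noncomputable def e4 (n : ℕ) : R4 →+* D.S n :=
  ev4 (psi D.T n) (Ideal.Quotient.mk _ D.x) (Ideal.Quotient.mk _ D.A) (Ideal.Quotient.mk _ D.Cc)
    (Ideal.Quotient.mk _ (D.w : D.T)) ((D.N0 + 1) * n) (D.nx n) (D.nA n) (D.nC n) (D.nw n)

end Datum

theorem evNil_comp {R S S' : Type*} [CommRing R] [CommRing S] [CommRing S'] (φ : R →+* S) (x : S)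
    (M : ℕ) (hx : x ^ M = 0) (h : S →+* S') (M' : ℕ) (hx' : (h x) ^ M' = 0) (f : R⟦X⟧) :
    h (evNil φ x M hx f) = evNil (h.comp φ) (h x) M' hx' f := by
  rw [evNil_apply, map_sum, evNil_eq_sum (h.comp φ) (h x) M' hx' f M (by rw [← map_pow, hx, map_zero])]
  simp

theorem ev2_comp {S S' : Type*} [CommRing S] [CommRing S'] (ψ : ℤ_[2] →+* S) (x Cc : S)
    (M : ℕ) (hx : x ^ M = 0) (hC : Cc ^ M = 0) (h : S →+* S') (M' : ℕ) (hx' : (h x) ^ M' = 0)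
    (hC' : (h Cc) ^ M' = 0) :
    h.comp (ev2 ψ x Cc M hx hC) = ev2 (h.comp ψ) (h x) (h Cc) M' hx' hC' := by
  ext f
  rw [RingHom.comp_apply, ev2, evNil_comp _ _ _ _ h M' hx', ev2]
  congr 2
  ext g
  exact evNil_comp _ _ _ _ h M' hC' g

theorem ev3_comp {S S' : Type*} [CommRing S] [CommRing S'] (ψ : ℤ_[2] →+* S) (x A Cc : S)
    (M : ℕ) (hx : x ^ M = 0) (hA : A ^ M = 0) (hC : Cc ^ M = 0) (h : S →+* S') (M' : ℕ)
    (hx' : (h x) ^ M' = 0) (hA' : (h A) ^ M' = 0) (hC' : (h Cc) ^ M' = 0) :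
    h.comp (ev3 ψ x A Cc M hx hA hC) = ev3 (h.comp ψ) (h x) (h A) (h Cc) M' hx' hA' hC' := by
  ext f
  rw [RingHom.comp_apply, ev3, evNil_comp _ _ _ _ h M' hA', ev3]
  congr 2
  exact ev2_comp ψ x Cc M hx hC h M' hx' hC'

theorem ev4_comp {S S' : Type*} [CommRing S] [CommRing S'] (ψ : ℤ_[2] →+* S) (x A Cc w : S)
    (M : ℕ) (hx : x ^ M = 0) (hA : A ^ M = 0) (hC : Cc ^ M = 0) (hw : w ^ M = 0)
    (h : S →+* S') (M' : ℕ)
    (hx' : (h x) ^ M' = 0) (hA' : (h A) ^ M' = 0) (hC' : (h Cc) ^ M' = 0) (hw' : (h w) ^ M' = 0) :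
    h.comp (ev4 ψ x A Cc w M hx hA hC hw) =
      ev4 (h.comp ψ) (h x) (h A) (h Cc) (h w) M' hx' hA' hC' hw' := by
  ext f
  rw [RingHom.comp_apply, ev4, evNil_comp _ _ _ _ h M' hw', ev4]
  congr 2
  exact ev3_comp ψ x A Cc M hx hA hC h M' hx' hA' hC'

/-- reduction -/
noncomputable def red (T : Type*) [CommRing T] (n e : ℕ) :
    T ⧸ Ideal.span {(2 : T) ^ (n + e)} →+* T ⧸ Ideal.span {(2 : T) ^ n} :=
  Ideal.Quotient.factor (by
    rw [Ideal.span_singleton_le_span_singleton]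
    exact pow_dvd_pow _ (by omega))

theorem red_mk (T : Type*) [CommRing T] (n e : ℕ) (t : T) :
    red T n e (Ideal.Quotient.mk _ t) = Ideal.Quotient.mk _ t := rfl

namespace Datum

variable (D : Datum)

theorem red_e2 (n e : ℕ) (f : R2) : red D.T n e (D.e2 (n + e) f) = D.e2 n f := by
  have h := ev2_comp (psi D.T (n + e)) (Ideal.Quotient.mk _ D.x) (Ideal.Quotient.mk _ D.Cc)
    _ (D.nx (n + e)) (D.nC (n + e)) (red D.T n e) ((D.N0 + 1) * n) (D.nx n) (D.nC n)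
  rw [hom_unique n (two_pow_q D.T n) ((red D.T n e).comp (psi D.T (n + e))) (psi D.T n)] at h
  exact RingHom.congr_fun h f

theorem red_e3 (n e : ℕ) (f : R3) : red D.T n e (D.e3 (n + e) f) = D.e3 n f := by
  have h := ev3_comp (psi D.T (n + e)) (Ideal.Quotient.mk _ D.x) (Ideal.Quotient.mk _ D.A)
    (Ideal.Quotient.mk _ D.Cc) _ (D.nx (n + e)) (D.nA (n + e)) (D.nC (n + e)) (red D.T n e)
    ((D.N0 + 1) * n) (D.nx n) (D.nA n) (D.nC n)
  rw [hom_unique n (two_pow_q D.T n) ((red D.T n e).comp (psi D.T (n + e))) (psi D.T n)] at h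
  exact RingHom.congr_fun h f

theorem red_e4 (n e : ℕ) (f : R4) : red D.T n e (D.e4 (n + e) f) = D.e4 n f := by
  have h := ev4_comp (psi D.T (n + e)) (Ideal.Quotient.mk _ D.x) (Ideal.Quotient.mk _ D.A)
    (Ideal.Quotient.mk _ D.Cc) (Ideal.Quotient.mk _ (D.w : D.T)) _ (D.nx (n + e)) (D.nA (n + e))
    (D.nC (n + e)) (D.nw (n + e)) (red D.T n e)
    ((D.N0 + 1) * n) (D.nx n) (D.nA n) (D.nC n) (D.nw n)
  rw [hom_unique n (two_pow_q D.T n) ((red D.T n e).comp (psi D.T (n + e))) (psi D.T n)] at h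
  exact RingHom.congr_fun h f

theorem tfp (e : ℕ) (a : D.T) (h : 2 ^ e * a = 0) : a = 0 := by
  induction e with
  | zero => simpa using h
  | succ e ih =>
    apply ih
    apply D.tf
    rw [← mul_assoc, ← pow_succ']
    exact h

theorem cancel2 (n e : ℕ) (t : D.S (n + e)) (h : 2 ^ e * t = 0) : red D.T n e t = 0 := by
  obtain ⟨t, rfl⟩ := Ideal.Quotient.mk_surjective t
  rw [red_mk, Ideal.Quotient.eq_zero_iff_mem, Ideal.mem_span_singleton]
  have h' : (Ideal.Quotient.mk (Ideal.span {(2 : D.T) ^ (n + e)})) (2 ^ e * t) = 0 := by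
    rw [map_mul, map_pow, map_ofNat]; exact h
  rw [Ideal.Quotient.eq_zero_iff_mem, Ideal.mem_span_singleton] at h'
  obtain ⟨s, hs⟩ := h'
  refine ⟨s, ?_⟩
  have : t - 2 ^ n * s = 0 := by
    apply D.tfp e
    rw [mul_sub, hs, pow_add]; ring
  exact sub_eq_zero.mp this

theorem cancel (c : ℤ) (hc : c ≠ 0) : ∃ e, ∀ n (t : D.S (n + e)), (c : D.S (n + e)) * t = 0 →
    red D.T n e t = 0 := by
  have hf : FiniteMultiplicity (2 : ℤ) c := Int.finiteMultiplicity_iff.mpr ⟨by norm_num, hc⟩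
  obtain ⟨e, u, hu, hu2⟩ : ∃ (e : ℕ) (u : ℤ), c = 2 ^ e * u ∧ ¬ 2 ∣ u := by
    obtain ⟨u, hu, hu2⟩ := hf.exists_eq_pow_mul_and_not_dvd
    exact ⟨_, u, hu, hu2⟩
  subst hu
  refine ⟨e, fun n t ht => ?_⟩
  have hcop : IsCoprime u ((2 : ℤ) ^ n) := by
    apply IsCoprime.pow_right
    rw [isCoprime_comm]
    exact (Prime.coprime_iff_not_dvd Int.prime_two).mpr hu2
  obtain ⟨α, β, hαβ⟩ := hcop
  have h1 : (2 : D.S (n + e)) ^ e * ((u : D.S (n + e)) * t) = 0 := by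
    rw [← ht]
    push_cast
    ring
  have h2 := D.cancel2 n _ _ h1
  rw [map_mul, map_intCast] at h2
  have h3 : ((α * u + β * 2 ^ n : ℤ) : D.S n) = 1 := by rw [hαβ]; simp
  push_cast at h3
  have h4 : (2 : D.S n) ^ n = 0 := two_pow_q D.T n
  rw [h4, mul_zero, add_zero] at h3
  calc red D.T n _ t = ((α : D.S n) * u) * red D.T n _ t := by rw [h3, one_mul]
    _ = α * (u * red D.T n _ t) := by ring
    _ = 0 := by rw [h2, mul_zero]

end Datum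

end Vale.Agent.P022.H693
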