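import Vale.Agent.P022.H693.Poly

namespace Vale.Agent.P022.H693

open Finset MvPolynomial

section

variable {E : Type*} [NontriviallyNormedField E] [NormedAlgebra ℚ_[2] E]
  {X₀ a c W : E} {ρ : ℝ}

theorem norm_two : ‖(2 : E)‖ = 2⁻¹ := by
  have h2 : ‖(2 : ℚ_[2])‖ = 2⁻¹ := by
    have := Padic.norm_p (p := 2)
    simpa using this
  have h3 : (algebraMap ℚ_[2] E) 2 = 2 := map_ofNat _ _
  rw [← h3, norm_algebraMap', h2]

theorem ev_bound (hρ0 : 0 ≤ ρ) (hρ : ρ < 1) (h1 : ‖X₀‖ ≤ ρ) (h2 : ‖a‖ ≤ ρ) (h3 : ‖c‖ ≤ ρ)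
    (h4 : ‖W‖ ≤ ρ) (hc : 2 * c = a * X₀) (P : MvPolynomial (Fin 4) ℤ) (f : Fin 3 →₀ ℕ)
    (i : Fin 3) :
    ‖coeff f (io P)‖ * (‖X₀‖ ^ (f 0) * ‖a‖ ^ (f 1) * ‖W‖ ^ (f 2)) ≤ ρ ^ (f i) := by
  have hn : ‖c‖ = 2 * (‖a‖ * ‖X₀‖) := by
    have := congrArg norm hc
    rw [norm_mul, norm_mul, norm_two] at this
    linarith
  have h2' : ‖(2⁻¹ : ℚ_[2])‖ = 2 := by
    have := Padic.norm_p (p := 2)
    rw [norm_inv]
    simp at this
    rw [this]; norm_num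
  induction P using MvPolynomial.induction_on' with
  | monomial d z =>
    rw [io_monomial]
    split_ifs with h
    · obtain ⟨e0, e1, e2⟩ := h
      have hz : ‖(z : ℚ_[2])‖ ≤ 1 := Padic.norm_int_le_one z
      calc ‖(z : ℚ_[2]) * 2⁻¹ ^ (d 2)‖ * (‖X₀‖ ^ (f 0) * ‖a‖ ^ (f 1) * ‖W‖ ^ (f 2))
          = ‖(z : ℚ_[2])‖ * (‖X₀‖ ^ (d 0) * ‖a‖ ^ (d 1) * ‖c‖ ^ (d 2) * ‖W‖ ^ (d 3)) := by
            rw [norm_mul, norm_pow, h2', e0, e1, e2, hn, mul_pow, mul_pow, pow_add, pow_add]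
            ring
        _ ≤ 1 * (ρ ^ (d 0) * ρ ^ (d 1) * ρ ^ (d 2) * ρ ^ (d 3)) := by
            gcongr
        _ = ρ ^ (d 0 + d 1 + d 2 + d 3) := by rw [one_mul, ← pow_add, ← pow_add, ← pow_add]
        _ ≤ ρ ^ (f i) := by
            apply pow_le_pow_of_le_one hρ0 hρ.le
            fin_cases i <;> simp <;> omega
    · rw [norm_zero, zero_mul]; positivity
  | add p q hp hq =>
    rw [map_add, coeff_add]
    have h5 : ‖coeff f (io p) + coeff f (io q)‖ ≤ max ‖coeff f (io p)‖ ‖coeff f (io q)‖ :=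
      Padic.nonarchimedean _ _
    have h6 : 0 ≤ ‖X₀‖ ^ (f 0) * ‖a‖ ^ (f 1) * ‖W‖ ^ (f 2) := by positivity
    calc ‖coeff f (io p) + coeff f (io q)‖ * (‖X₀‖ ^ (f 0) * ‖a‖ ^ (f 1) * ‖W‖ ^ (f 2))
        ≤ max ‖coeff f (io p)‖ ‖coeff f (io q)‖ * (‖X₀‖ ^ (f 0) * ‖a‖ ^ (f 1) * ‖W‖ ^ (f 2)) := by
          gcongr
      _ = max (‖coeff f (io p)‖ * (‖X₀‖ ^ (f 0) * ‖a‖ ^ (f 1) * ‖W‖ ^ (f 2)))
            (‖coeff f (io q)‖ * (‖X₀‖ ^ (f 0) * ‖a‖ ^ (f 1) * ‖W‖ ^ (f 2))) := by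
          rw [max_mul_of_nonneg _ _ h6]
      _ ≤ ρ ^ (f i) := max_le hp hq

theorem ev_io (hc : 2 * c = a * X₀) (P : MvPolynomial (Fin 4) ℤ) :
    aeval ![X₀, a, c, W] P = aeval ![X₀, a, W] (io P) := by
  have : ((aeval ![X₀, a, c, W] : MvPolynomial (Fin 4) ℤ →ₐ[ℤ] E) : MvPolynomial (Fin 4) ℤ →+* E) =
      ((aeval ![X₀, a, W] : MvPolynomial (Fin 3) ℚ_[2] →ₐ[ℚ_[2]] E) :
        MvPolynomial (Fin 3) ℚ_[2] →+* E).comp io := by
    apply MvPolynomial.ringHom_ext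
    · intro r; simp
    · intro i
      fin_cases i
      · simp [io]
      · simp [io]
      · have h2 : (2 : E) ≠ 0 := by
          have h := norm_two (E := E)
          intro h0
          rw [h0, norm_zero] at h
          norm_num at h
        have h7 : (algebraMap ℚ_[2] E) 2 = 2 := map_ofNat _ _
        simp [io]
        field_simp
        linear_combination hc + c * h7
      · simp [io]
  exact RingHom.congr_fun this P

theorem ev_small [IsUltrametricDist E] (h1 : ‖X₀‖ < 1) (h2 : ‖a‖ < 1) (h3 : ‖c‖ < 1)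
    (h4 : ‖W‖ < 1) (hc : 2 * c = a * X₀) (F : Filter ℕ) (P : ℕ → MvPolynomial (Fin 4) ℤ)
    (h : ∀ f, Filter.Tendsto (fun j => coeff f (io (P j))) F (nhds 0)) (ε : ℝ) (hε : 0 < ε) :
    ∀ᶠ j in F, ‖aeval ![X₀, a, c, W] (P j)‖ ≤ ε := by
  obtain ⟨ρ, hρ0, hρ, g1, g2, g3, g4⟩ : ∃ ρ : ℝ, 0 ≤ ρ ∧ ρ < 1 ∧ ‖X₀‖ ≤ ρ ∧ ‖a‖ ≤ ρ ∧ ‖c‖ ≤ ρ ∧
      ‖W‖ ≤ ρ := by
    refine ⟨max (max ‖X₀‖ ‖a‖) (max ‖c‖ ‖W‖), ?_, ?_, ?_, ?_, ?_, ?_⟩
    · exact (norm_nonneg X₀).trans ((le_max_left _ _).trans (le_max_left _ _))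
    · exact max_lt (max_lt h1 h2) (max_lt h3 h4)
    · exact (le_max_left _ _).trans (le_max_left _ _)
    · exact (le_max_right _ _).trans (le_max_left _ _)
    · exact (le_max_left _ _).trans (le_max_right _ _)
    · exact (le_max_right _ _).trans (le_max_right _ _)
  obtain ⟨K, hK⟩ := exists_pow_lt_of_lt_one hε hρ
  have hfin : ∀ᶠ j in F, ∀ f ∈ Finset.Iic (Finsupp.equivFunOnFinite.symm (fun _ : Fin 3 => K)),
      ‖coeff f (io (P j))‖ < ε := by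
    rw [Filter.eventually_all_finset]
    intro f _
    have := (h f).norm
    rw [norm_zero] at this
    exact this.eventually (gt_mem_nhds hε)
  filter_upwards [hfin] with j hj
  rw [ev_io hc, aeval_def, eval₂_eq']
  apply IsUltrametricDist.norm_sum_le_of_forall_le_of_nonneg hε.le
  intro f _
  have e : ‖(algebraMap ℚ_[2] E) (coeff f (io (P j))) * ∏ i : Fin 3, ![X₀, a, W] i ^ f i‖ =
      ‖coeff f (io (P j))‖ * (‖X₀‖ ^ (f 0) * ‖a‖ ^ (f 1) * ‖W‖ ^ (f 2)) := by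
    rw [norm_mul, norm_algebraMap', Fin.prod_univ_three, norm_mul, norm_mul, norm_pow, norm_pow,
      norm_pow]
    simp
  rw [e]
  by_cases hf : f ≤ Finsupp.equivFunOnFinite.symm (fun _ : Fin 3 => K)
  · have h5 := hj f (Finset.mem_Iic.mpr hf)
    calc ‖coeff f (io (P j))‖ * (‖X₀‖ ^ (f 0) * ‖a‖ ^ (f 1) * ‖W‖ ^ (f 2))
        ≤ ε * (1 ^ (f 0) * 1 ^ (f 1) * 1 ^ (f 2)) := by gcongr
      _ = ε := by simp
  · have : ∃ i : Fin 3, K ≤ f i := by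
      by_contra hcon
      push Not at hcon
      apply hf
      intro i
      simpa using (hcon i).le
    obtain ⟨i, hi⟩ := this
    calc _ ≤ ρ ^ (f i) := ev_bound hρ0 hρ g1 g2 g3 g4 hc (P j) f i
      _ ≤ ρ ^ K := pow_le_pow_of_le_one hρ0 hρ.le hi
      _ ≤ ε := hK.le

end

end Vale.Agent.P022.H693
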