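import Vale.Agent.P022.H693.Low

namespace Vale.Agent.P022.H693

open Finset

theorem lim_Z (𝓤 : Ultrafilter ℕ) (f : ℕ → ℤ_[2]) :
    ∃ c, Filter.Tendsto f 𝓤 (nhds c) := by
  refine ⟨(𝓤.map f).lim, ?_⟩
  exact (𝓤.map f).le_nhds_lim

theorem lim_Q (𝓤 : Ultrafilter ℕ) (f : ℕ → ℚ_[2]) (B : ℝ) (h : ∀ n, ‖f n‖ ≤ B) :
    ∃ c, Filter.Tendsto f 𝓤 (nhds c) := by
  have hc : IsCompact (Metric.closedBall (0 : ℚ_[2]) B) := isCompact_closedBall 0 B
  obtain ⟨c, _, hc⟩ := hc.ultrafilter_le_nhds (𝓤.map f) (by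
    rw [Filter.le_principal_iff]
    change f ⁻¹' _ ∈ 𝓤
    filter_upwards with n
    simpa using h n)
  exact ⟨c, hc⟩

theorem lim_R4 (𝓤 : Ultrafilter ℕ) (g : ℕ → R4) : ∃ G : R4, ∀ i j l m,
    Filter.Tendsto (fun n => cf (PowerSeries.coeff m (g n)) i j l) 𝓤
      (nhds (cf (PowerSeries.coeff m G) i j l)) := by
  choose L hL using fun (i j l m : ℕ) => lim_Z 𝓤 (fun n => cf (PowerSeries.coeff m (g n)) i j l)
  refine ⟨PowerSeries.mk fun m => PowerSeries.mk fun j => PowerSeries.mk fun i =>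
    PowerSeries.mk fun l => L i j l m, ?_⟩
  intro i j l m
  have : cf (PowerSeries.coeff m (PowerSeries.mk fun m => PowerSeries.mk fun j =>
      PowerSeries.mk fun i => PowerSeries.mk fun l => L i j l m : R4)) i j l = L i j l m := by
    simp [cf]
  rw [this]
  exact hL i j l m

theorem tendsto_EE (𝓤 : Filter ℕ) (g : ℕ → R3) (G : R3)
    (h : ∀ i j l, Filter.Tendsto (fun n => cf (g n) i j l) 𝓤 (nhds (cf G i j l))) (a b : ℕ) :
    Filter.Tendsto (fun n => EE (g n) a b) 𝓤 (nhds (EE G a b)) := by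
  unfold EE
  apply tendsto_finsetSum
  intro j _
  split_ifs
  · exact (h _ _ _).const_mul _
  · exact tendsto_const_nhds

theorem psi_congr (T : Type*) [CommRing T] (n : ℕ) (c c' : ℤ_[2])
    (h : ‖c - c'‖ ≤ (2 : ℝ) ^ (-n : ℤ)) : psi T n c = psi T n c' := by
  have h1 : c - c' ∈ Ideal.span {(2 : ℤ_[2]) ^ n} := by
    have := (PadicInt.norm_le_pow_iff_mem_span_pow (p := 2) (c - c') n).mp (by simpa using h)
    simpa using this
  rw [Ideal.mem_span_singleton] at h1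
  obtain ⟨b, hb⟩ := h1
  rw [← sub_eq_zero, ← map_sub, hb, map_mul, map_pow, map_ofNat, two_pow_q, zero_mul]

theorem e4_congr (D : Datum) (n : ℕ) (F G : R4)
    (h : ∀ i < (D.N0 + 1) * n, ∀ j < (D.N0 + 1) * n, ∀ l < (D.N0 + 1) * n,
      ∀ m < (D.N0 + 1) * n, psi D.T n (cf (PowerSeries.coeff m F) i j l) =
        psi D.T n (cf (PowerSeries.coeff m G) i j l)) : D.e4 n F = D.e4 n G := by
  unfold Datum.e4 ev4
  rw [evNil_apply, evNil_apply]
  apply Finset.sum_congr rfl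
  intro m hm
  congr 1
  unfold ev3
  rw [evNil_apply, evNil_apply]
  apply Finset.sum_congr rfl
  intro j hj
  congr 1
  unfold ev2
  rw [evNil_apply, evNil_apply]
  apply Finset.sum_congr rfl
  intro i hi
  congr 1
  rw [evNil_apply, evNil_apply]
  apply Finset.sum_congr rfl
  intro l hl
  congr 1
  exact h i (mem_range.mp hi) j (mem_range.mp hj) l (mem_range.mp hl) m (mem_range.mp hm)

theorem e4_lim (𝓤 : Ultrafilter ℕ) (D : Datum) (n : ℕ) (g : ℕ → R4) (G : R4)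
    (h : ∀ i j l m, Filter.Tendsto (fun n => cf (PowerSeries.coeff m (g n)) i j l) 𝓤
      (nhds (cf (PowerSeries.coeff m G) i j l)))
    (h0 : ∀ᶠ t in (𝓤 : Filter ℕ), D.e4 n (g t) = 0) : D.e4 n G = 0 := by
  have h1 : ∀ᶠ t in (𝓤 : Filter ℕ), ∀ i ∈ range ((D.N0 + 1) * n), ∀ j ∈ range ((D.N0 + 1) * n),
      ∀ l ∈ range ((D.N0 + 1) * n), ∀ m ∈ range ((D.N0 + 1) * n),
      psi D.T n (cf (PowerSeries.coeff m (g t)) i j l) =
        psi D.T n (cf (PowerSeries.coeff m G) i j l) := by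
    rw [Filter.eventually_all_finset]; intro i _
    rw [Filter.eventually_all_finset]; intro j _
    rw [Filter.eventually_all_finset]; intro l _
    rw [Filter.eventually_all_finset]; intro m _
    have h2 := tendsto_iff_norm_sub_tendsto_zero.mp (h i j l m)
    have h3 : (0 : ℝ) < (2 : ℝ) ^ (-n : ℤ) := by positivity
    filter_upwards [h2.eventually (gt_mem_nhds h3)] with t ht
    exact psi_congr _ _ _ _ ht.le
  obtain ⟨t, ht0, ht1⟩ := (h0.and h1).exists
  rw [← ht0]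
  apply e4_congr
  intro i hi j hj l hl m hm
  exact (ht1 i (mem_range.mpr hi) j (mem_range.mpr hj) l (mem_range.mpr hl) m
    (mem_range.mpr hm)).symm

theorem tendsto_mul_ps (𝓤 : Filter ℕ) (p q : ℕ → MvPowerSeries (Fin 3) ℚ_[2])
    (u v : MvPowerSeries (Fin 3) ℚ_[2])
    (hp : ∀ f, Filter.Tendsto (fun n => MvPowerSeries.coeff f (p n)) 𝓤
      (nhds (MvPowerSeries.coeff f u)))
    (hq : ∀ f, Filter.Tendsto (fun n => MvPowerSeries.coeff f (q n)) 𝓤
      (nhds (MvPowerSeries.coeff f v))) (f : Fin 3 →₀ ℕ) :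
    Filter.Tendsto (fun n => MvPowerSeries.coeff f (p n * q n)) 𝓤
      (nhds (MvPowerSeries.coeff f (u * v))) := by
  simp only [MvPowerSeries.coeff_mul]
  apply tendsto_finsetSum
  intro x _
  exact (hp _).mul (hq _)

theorem lim_ps (𝓤 : Ultrafilter ℕ) (p : ℕ → MvPowerSeries (Fin 3) ℚ_[2])
    (B : (Fin 3 →₀ ℕ) → ℝ) (h : ∀ f n, ‖MvPowerSeries.coeff f (p n)‖ ≤ B f) :
    ∃ u : MvPowerSeries (Fin 3) ℚ_[2], ∀ f,
      Filter.Tendsto (fun n => MvPowerSeries.coeff f (p n)) 𝓤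
        (nhds (MvPowerSeries.coeff f u)) := by
  choose L hL using fun f => lim_Q 𝓤 (fun n => MvPowerSeries.coeff f (p n)) (B f) (h f)
  exact ⟨fun f => L f, hL⟩

end Vale.Agent.P022.H693
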