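import Vale.Agent.P022.H693.Datum

namespace Vale.Agent.P022.H693

open PowerSeries Finset

/-- faithfulness modulo 2 on the weights in `W` -/
def Faith {K : Type} (D : K → Datum) (W : Set K) : Prop :=
  ∀ P : ℕ → ℕ → ℤ, (∀ k ∈ W, ∀ N, 2 ∣ (D k).x ^ N → 2 ∣ (D k).Cc ^ N →
    2 ∣ ∑ p ∈ range N, ∑ q ∈ range N, (P p q : (D k).T) * (D k).x ^ p * (D k).Cc ^ q) →
    ∀ p q, 2 ∣ P p q

theorem faith_one {K : Type} (D : K → Datum) (W : Set K) (hF : Faith D W) (F : R2)
    (h : ∀ k ∈ W, (D k).e2 1 F = 0) : ∃ F' : R2, F = 2 * F' := by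
  have h1 : ∀ p q, (2 : ℤ) ∣ ((coeff q (coeff p F)).appr 1 : ℤ) := by
    apply hF (fun p q => ((coeff q (coeff p F)).appr 1 : ℤ))
    intro k hk N hx hC
    have h2 := h k hk
    have hx1 : (Ideal.Quotient.mk (Ideal.span {(2 : (D k).T) ^ 1}) (D k).x) ^ N = 0 := by
      rw [← map_pow, Ideal.Quotient.eq_zero_iff_mem, Ideal.mem_span_singleton, pow_one]
      exact hx
    have hC1 : (Ideal.Quotient.mk (Ideal.span {(2 : (D k).T) ^ 1}) (D k).Cc) ^ N = 0 := by
      rw [← map_pow, Ideal.Quotient.eq_zero_iff_mem, Ideal.mem_span_singleton, pow_one]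
      exact hC
    rw [Datum.e2, ev2, evNil_eq_sum _ _ _ _ F N hx1] at h2
    have h3 : (Ideal.Quotient.mk (Ideal.span {(2 : (D k).T) ^ 1})) (∑ p ∈ range N, ∑ q ∈ range N,
        (((coeff q (coeff p F)).appr 1 : ℤ) : (D k).T) * (D k).x ^ p * (D k).Cc ^ q) = 0 := by
      rw [← h2, map_sum]
      apply Finset.sum_congr rfl
      intro p _
      rw [evNil_eq_sum _ _ _ _ _ N hC1, Finset.sum_mul, map_sum]
      apply Finset.sum_congr rfl
      intro q _
      rw [psi_appr, map_mul, map_mul, map_pow, map_pow]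
      ring
    rw [Ideal.Quotient.eq_zero_iff_mem, Ideal.mem_span_singleton, pow_one] at h3
    exact h3
  have h2 : ∀ p q, (2 : ℤ_[2]) ∣ coeff q (coeff p F) := by
    intro p q
    have h := PadicInt.appr_spec (p := 2) 1 (coeff q (coeff p F))
    rw [Ideal.mem_span_singleton, pow_one] at h
    have h' : (2 : ℤ_[2]) ∣ (((coeff q (coeff p F)).appr 1 : ℤ) : ℤ_[2]) := by
      have := (Int.castRingHom ℤ_[2]).map_dvd (h1 p q)
      simpa using this
    have h'' : (2 : ℤ_[2]) ∣ coeff q (coeff p F) - (((coeff q (coeff p F)).appr 1 : ℤ) : ℤ_[2]) := by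
      simpa using h
    exact (dvd_sub_left h').mp h''
  choose f hf using h2
  refine ⟨PowerSeries.mk fun p => PowerSeries.mk fun q => f p q, ?_⟩
  ext p q
  rw [hf p q, two_mul, two_mul, map_add, map_add, coeff_mk, coeff_mk]

theorem faith_pow {K : Type} (D : K → Datum) (W : Set K) (hF : Faith D W) (N : ℕ) : ∀ (F : R2),
    (∀ k ∈ W, (D k).e2 N F = 0) → ∃ F' : R2, F = 2 ^ N * F' := by
  induction N with
  | zero => intro F _; exact ⟨F, by simp⟩
  | succ N ih =>
    intro F h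
    obtain ⟨F', rfl⟩ := faith_one D W hF F (fun k hk => by
      have h2 := congrArg (red (D k).T 1 N) (show (D k).e2 (1 + N) F = 0 by
        rw [add_comm 1 N]; exact h k hk)
      rw [Datum.red_e2, map_zero] at h2
      exact h2)
    obtain ⟨F'', hF''⟩ := ih F' (fun k hk => by
      have h2 := h k hk
      rw [map_mul, map_ofNat] at h2
      rw [← (D k).red_e2 N 1]
      exact (D k).cancel2 N 1 _ (by rw [pow_one]; exact h2))
    exact ⟨F'', by rw [hF'', pow_succ]; ring⟩

theorem core {K : Type} (D : K → Datum) (W : ℕ → Set K) (hF : ∀ N, Faith D (W N)) (g : R3)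
    (h : ∀ N, ∀ k ∈ W N, (D k).e3 N g = 0) (a b : ℕ) : EE g a b = 0 := by
  have key : ∀ N, b < N → ‖EE g a b‖ ≤ (2 : ℝ) ^ (-N : ℤ) := by
    intro N hN
    have h1 : ∀ k ∈ W N, (D k).e2 N (DN g N) = 0 := by
      intro k hk
      have h2 := ev3_DN (psi (D k).T N) (Ideal.Quotient.mk _ (D k).x) (Ideal.Quotient.mk _ (D k).A)
        (Ideal.Quotient.mk _ (D k).Cc) (((D k).N0 + 1) * N) ((D k).nx N) ((D k).nA N) ((D k).nC N)
        (by rw [← map_mul, (D k).rel, map_mul, map_ofNat]) N (two_pow_q _ _) g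
      have h3 : ev3 (psi (D k).T N) (Ideal.Quotient.mk _ (D k).x) (Ideal.Quotient.mk _ (D k).A)
        (Ideal.Quotient.mk _ (D k).Cc) (((D k).N0 + 1) * N) ((D k).nx N) ((D k).nA N)
        ((D k).nC N) g = 0 := h N k hk
      rw [h3, mul_zero] at h2
      exact h2.symm
    obtain ⟨F', hF'⟩ := faith_pow D (W N) (hF N) N _ h1
    have h4 : EE g a b = 2 ^ N * coeff b (coeff (N + a - b) F') := by
      rw [← coeff_DN g N a b hN, hF']
      have : (2 ^ N : R2) = C (C (2 ^ N)) := by rw [map_pow, map_pow, map_ofNat, map_ofNat]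
      rw [this, coeff_C_mul, coeff_C_mul]
    rw [h4, norm_mul]
    calc ‖(2 : ℤ_[2]) ^ N‖ * ‖coeff b (coeff (N + a - b) F')‖ ≤ ‖(2 : ℤ_[2]) ^ N‖ * 1 := by
          gcongr
          exact PadicInt.norm_le_one _
      _ = 2 ^ (-N : ℤ) := by
        rw [mul_one]
        have := PadicInt.norm_p_pow (p := 2) N
        simpa using this
  have hlim : Filter.Tendsto (fun N : ℕ => (2 : ℝ) ^ (-N : ℤ)) Filter.atTop (nhds 0) := by
    have : (fun N : ℕ => (2 : ℝ) ^ (-N : ℤ)) = fun N : ℕ => ((2 : ℝ)⁻¹) ^ N := by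
      ext N; rw [zpow_neg, zpow_natCast, inv_pow]
    rw [this]
    exact tendsto_pow_atTop_nhds_zero_of_lt_one (by norm_num) (by norm_num)
  have h0 : ‖EE g a b‖ ≤ 0 := by
    apply ge_of_tendsto hlim
    filter_upwards [Filter.eventually_gt_atTop b] with N hN
    exact key N hN
  exact norm_le_zero_iff.mp h0

theorem Datum.e4_split (D : Datum) (n : ℕ) (g : R4) : D.e4 n g =
    (D.w : D.S n) * D.e4 n (PowerSeries.mk fun p => coeff (p + 1) g) + D.e3 n (coeff 0 g) := by
  conv_lhs => rw [eq_X_mul_shift_add_const g]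
  have h5 : (constantCoeff g : R3) = coeff 0 g := by simp
  rw [map_add, map_mul, h5]
  congr 1
  · congr 1
    have := ev4_X (psi D.T n) (Ideal.Quotient.mk _ D.x) (Ideal.Quotient.mk _ D.A)
      (Ideal.Quotient.mk _ D.Cc) (Ideal.Quotient.mk _ (D.w : D.T)) ((D.N0 + 1) * n) (D.nx n)
      (D.nA n) (D.nC n) (D.nw n)
    rw [Datum.e4, this, map_intCast]
  · exact ev4_C _ _ _ _ _ _ _ _ _ _ _

theorem low {K : Type} (D : K → Datum) (Wo : Set K) (W : ℕ → Set K) (hsub : ∀ N, W N ⊆ Wo)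
    (hF : ∀ N, Faith D (W N)) (hw : ∀ N, ∀ k ∈ W N, (2 : ℤ) ^ N ∣ (D k).w) (m : ℕ) :
    ∀ g : R4, (∀ k ∈ Wo, ∀ n, (D k).e4 n g = 0) → ∀ a b, EE (coeff m g) a b = 0 := by
  have h0 : ∀ g : R4, (∀ k ∈ Wo, ∀ n, (D k).e4 n g = 0) → ∀ a b, EE (coeff 0 g) a b = 0 := by
    intro g hg
    apply core D W hF
    intro N k hk
    have h1 := hg k (hsub N hk) N
    rw [Datum.e4_split] at h1
    have h3 : ((D k).w : (D k).S N) = 0 := by
      rw [← map_intCast (Ideal.Quotient.mk (Ideal.span {(2 : (D k).T) ^ N})),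
        Ideal.Quotient.eq_zero_iff_mem, Ideal.mem_span_singleton]
      have := (Int.castRingHom (D k).T).map_dvd (hw N k hk)
      simpa using this
    rw [h3, zero_mul, zero_add] at h1
    exact h1
  induction m with
  | zero => exact h0
  | succ m ih =>
    intro g hg a b
    have h1 := h0 g hg
    have h2 := ih (PowerSeries.mk fun p => coeff (p + 1) g) (fun k hk => by
      obtain ⟨e, he⟩ := (D k).cancel (D k).w (D k).hw
      intro n
      rw [← (D k).red_e4 n e]
      apply he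
      have h3 := hg k hk (n + e)
      rw [Datum.e4_split] at h3
      have h4 : (D k).e3 (n + e) (coeff 0 g) = 0 :=
        ev3_div (psi (D k).T (n + e)) (Ideal.Quotient.mk _ (D k).x)
        (Ideal.Quotient.mk _ (D k).A)
        (Ideal.Quotient.mk _ (D k).Cc) (((D k).N0 + 1) * (n + e)) ((D k).nx _) ((D k).nA _)
        ((D k).nC _) (by rw [← map_mul, (D k).rel, map_mul, map_ofNat]) (coeff 0 g) h1
      rw [h4, add_zero] at h3
      exact h3) a b
    simpa using h2

end Vale.Agent.P022.H693
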