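import Mathlib

namespace Vale.Agent.P022.H693

open PowerSeries Finset

/-- evaluation of a power series at a nilpotent element, along a ring homomorphism of the
coefficients. -/
noncomputable def evNil {R S : Type*} [CommRing R] [CommRing S] (φ : R →+* S) (x : S) (M : ℕ)
    (hx : x ^ M = 0) : R⟦X⟧ →+* S where
  toFun f := (trunc M f).eval₂ φ x
  map_one' := by
    rcases M with _ | M
    · have h0 : (1 : S) = 0 := by simpa using hx
      have : Subsingleton S := subsingleton_of_zero_eq_one h0.symm
      exact Subsingleton.elim _ _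
    · rw [trunc_one]; simp
  map_zero' := by simp
  map_add' f g := by rw [map_add, Polynomial.eval₂_add]
  map_mul' f g := by
    have key : ∀ p : Polynomial R, (trunc M (p : R⟦X⟧)).eval₂ φ x = p.eval₂ φ x := by
      intro p
      have h : Polynomial.X ^ M ∣ p - trunc M (p : R⟦X⟧) := by
        rw [Polynomial.X_pow_dvd_iff]
        intro d hd
        rw [Polynomial.coeff_sub, coeff_trunc, if_pos hd, Polynomial.coeff_coe, sub_self]
      obtain ⟨q, hq⟩ := h
      have h2 := congrArg (Polynomial.eval₂ φ x) hq
      rw [Polynomial.eval₂_sub, Polynomial.eval₂_mul, Polynomial.eval₂_X_pow, hx, zero_mul,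
        sub_eq_zero] at h2
      exact h2.symm
    rw [← Polynomial.eval₂_mul, ← trunc_trunc_mul_trunc, ← Polynomial.coe_mul, key]

variable {R S : Type*} [CommRing R] [CommRing S] (φ : R →+* S) (x : S) (M : ℕ) (hx : x ^ M = 0)

theorem evNil_apply (f : R⟦X⟧) :
    evNil φ x M hx f = ∑ i ∈ range M, φ (coeff i f) * x ^ i := by
  change (trunc M f).eval₂ φ x = _
  exact eval₂_trunc_eq_sum_range x φ M f

theorem evNil_X : evNil φ x M hx X = x := by
  rw [evNil_apply]
  rcases M with _ | _ | M
  · have h0 : (1 : S) = 0 := by simpa using hx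
    have : Subsingleton S := subsingleton_of_zero_eq_one h0.symm
    exact Subsingleton.elim _ _
  · simp at hx
    simp [hx]
  · rw [Finset.sum_eq_single 1]
    · simp
    · intro b _ hb
      rw [coeff_X, if_neg hb]; simp
    · intro h; simp at h

theorem evNil_C (r : R) : evNil φ x M hx (C r) = φ r := by
  rw [evNil_apply]
  rcases M with _ | M
  · have h0 : (1 : S) = 0 := by simpa using hx
    have : Subsingleton S := subsingleton_of_zero_eq_one h0.symm
    exact Subsingleton.elim _ _
  · rw [Finset.sum_eq_single 0]
    · simp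
    · intro b _ hb
      rw [coeff_C, if_neg hb]; simp
    · intro h; simp at h

theorem evNil_eq_sum (f : R⟦X⟧) (N : ℕ) (hN : x ^ N = 0) :
    evNil φ x M hx f = ∑ i ∈ range N, φ (coeff i f) * x ^ i := by
  rw [evNil_apply]
  rcases le_total M N with h | h
  · refine Finset.sum_subset (by simpa using h) ?_
    intro i _ hi
    rw [mem_range, not_lt] at hi
    rw [pow_eq_zero_of_le hi hx, mul_zero]
  · symm
    refine Finset.sum_subset (by simpa using h) ?_
    intro i _ hi
    rw [mem_range, not_lt] at hi
    rw [pow_eq_zero_of_le hi hN, mul_zero]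

end Vale.Agent.P022.H693
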