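import Vale.Agent.P022.H693.Div

namespace Vale.Agent.P022.H693

open Finset MvPolynomial

/-- the relations between the six traces. -/
structure Rel {S : Type*} [CommRing S] (x y z A B C : S) : Prop where
  r1 : 2 * C = A * x
  r2 : 2 * B = A * y
  r3 : y ^ 2 = x ^ 2 - 4 * z
  r4 : y * B = C * x - 2 * A * z
  r5 : B ^ 2 = C ^ 2 - A ^ 2 * z

theorem p0 (Q : MvPolynomial (Fin 6) ℤ) : ∃ p q r : MvPolynomial (Fin 4) ℤ,
    ∀ (S : Type) [CommRing S] (x y z A B C : S), Rel x y z A B C →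
      aeval ![x, y, z, A, B, C] Q = aeval ![x, A, C, z - 1] p + aeval ![x, A, C, z - 1] q * y +
        aeval ![x, A, C, z - 1] r * B := by
  induction Q using MvPolynomial.induction_on with
  | C a =>
    refine ⟨C a, 0, 0, ?_⟩
    intro S _ x y z A B Cc _
    simp
  | add Q1 Q2 h1 h2 =>
    obtain ⟨p1, q1, r1, h1⟩ := h1
    obtain ⟨p2, q2, r2, h2⟩ := h2
    refine ⟨p1 + p2, q1 + q2, r1 + r2, ?_⟩
    intro S _ x y z A B Cc h
    rw [map_add, h1 S x y z A B Cc h, h2 S x y z A B Cc h, map_add, map_add, map_add]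
    ring
  | mul_X Q i h1 =>
    obtain ⟨p, q, r, h1⟩ := h1
    fin_cases i
    · refine ⟨p * X 0, q * X 0, r * X 0, ?_⟩
      intro S _ x y z A B Cc h
      rw [map_mul, h1 S x y z A B Cc h]
      simp
      ring
    · refine ⟨q * (X 0 ^ 2 - 4 * (1 + X 3)) + r * (X 2 * X 0 - 2 * X 1 * (1 + X 3)), p, 0, ?_⟩
      intro S _ x y z A B Cc h
      rw [map_mul, h1 S x y z A B Cc h]
      simp
      have e3 := h.r3
      have e4 := h.r4
      linear_combination (aeval ![x, A, Cc, z - 1] q) * e3 + (aeval ![x, A, Cc, z - 1] r) * e4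
    · refine ⟨p * (1 + X 3), q * (1 + X 3), r * (1 + X 3), ?_⟩
      intro S _ x y z A B Cc h
      rw [map_mul, h1 S x y z A B Cc h]
      simp
      ring
    · refine ⟨p * X 1, q * X 1, r * X 1, ?_⟩
      intro S _ x y z A B Cc h
      rw [map_mul, h1 S x y z A B Cc h]
      simp
      ring
    · refine ⟨q * (X 2 * X 0 - 2 * X 1 * (1 + X 3)) + r * (X 2 ^ 2 - X 1 ^ 2 * (1 + X 3)), 0, p, ?_⟩
      intro S _ x y z A B Cc h
      rw [map_mul, h1 S x y z A B Cc h]
      simp
      have e4 := h.r4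
      have e5 := h.r5
      linear_combination (aeval ![x, A, Cc, z - 1] q) * e4 + (aeval ![x, A, Cc, z - 1] r) * e5
    · refine ⟨p * X 2, q * X 2, r * X 2, ?_⟩
      intro S _ x y z A B Cc h
      rw [map_mul, h1 S x y z A B Cc h]
      simp
      ring

/-- polynomials into the power series ring -/
noncomputable def pi4 : MvPolynomial (Fin 4) ℤ →+* R4 :=
  (aeval ![PowerSeries.C (PowerSeries.C PowerSeries.X), PowerSeries.C PowerSeries.X,
    PowerSeries.C (PowerSeries.C (PowerSeries.C PowerSeries.X)), PowerSeries.X] :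
    MvPolynomial (Fin 4) ℤ →ₐ[ℤ] R4).toRingHom

/-- `C = A x / 2` -/
noncomputable def io : MvPolynomial (Fin 4) ℤ →+* MvPolynomial (Fin 3) ℚ_[2] :=
  (aeval ![X 0, X 1, C (2⁻¹ : ℚ_[2]) * X 0 * X 1, X 2] :
    MvPolynomial (Fin 4) ℤ →ₐ[ℤ] MvPolynomial (Fin 3) ℚ_[2]).toRingHom

theorem pi4_monomial (d : Fin 4 →₀ ℕ) (a : ℤ) : pi4 (monomial d a) =
    (a : R4) * PowerSeries.C (PowerSeries.C PowerSeries.X) ^ (d 0) *
      PowerSeries.C PowerSeries.X ^ (d 1) *
      PowerSeries.C (PowerSeries.C (PowerSeries.C PowerSeries.X)) ^ (d 2) *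
      PowerSeries.X ^ (d 3) := by
  change aeval _ (monomial d a) = _
  rw [aeval_monomial, Finsupp.prod_fintype _ _ (by simp)]
  simp [Fin.prod_univ_four]
  ring

theorem cf_pi4_monomial (d : Fin 4 →₀ ℕ) (a : ℤ) (i j l m : ℕ) :
    cf (PowerSeries.coeff m (pi4 (monomial d a))) i j l =
      if i = d 0 ∧ j = d 1 ∧ l = d 2 ∧ m = d 3 then (a : ℤ_[2]) else 0 := by
  have e : pi4 (monomial d a) = PowerSeries.C (PowerSeries.C (PowerSeries.C
      (PowerSeries.C (a : ℤ_[2]) * PowerSeries.X ^ (d 2)) * PowerSeries.X ^ (d 0)) *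
      PowerSeries.X ^ (d 1)) * PowerSeries.X ^ (d 3) := by
    rw [pi4_monomial]
    simp only [map_mul, map_pow, map_intCast]
    ring
  rw [e]
  unfold cf
  rw [PowerSeries.coeff_C_mul, PowerSeries.coeff_X_pow]
  by_cases h3 : m = d 3
  · rw [if_pos h3, mul_one, PowerSeries.coeff_C_mul, PowerSeries.coeff_X_pow]
    by_cases h1 : j = d 1
    · rw [if_pos h1, mul_one, PowerSeries.coeff_C_mul, PowerSeries.coeff_X_pow]
      by_cases h0 : i = d 0
      · rw [if_pos h0, mul_one, PowerSeries.coeff_C_mul, PowerSeries.coeff_X_pow]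
        by_cases h2 : l = d 2
        · rw [if_pos h2, mul_one, if_pos ⟨h0, h1, h2, h3⟩]
        · rw [if_neg h2, mul_zero, if_neg (fun h => h2 h.2.2.1)]
      · rw [if_neg h0, mul_zero, map_zero, if_neg (fun h => h0 h.1)]
    · rw [if_neg h1, mul_zero, map_zero, map_zero, if_neg (fun h => h1 h.2.1)]
  · rw [if_neg h3, mul_zero, map_zero, map_zero, map_zero, if_neg (fun h => h3 h.2.2.2)]

theorem io_monomial (d : Fin 4 →₀ ℕ) (a : ℤ) (f : Fin 3 →₀ ℕ) :
    coeff f (io (monomial d a)) =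
      if f 0 = d 0 + d 2 ∧ f 1 = d 1 + d 2 ∧ f 2 = d 3 then (a : ℚ_[2]) * (2⁻¹) ^ (d 2) else 0 := by
  have e : io (monomial d a) = monomial (Finsupp.single 0 (d 0 + d 2) + Finsupp.single 1 (d 1 + d 2)
      + Finsupp.single 2 (d 3)) ((a : ℚ_[2]) * (2⁻¹) ^ (d 2)) := by
    change aeval _ (monomial d a) = _
    rw [aeval_monomial, Finsupp.prod_fintype _ _ (by simp)]
    rw [monomial_eq, Finsupp.prod_fintype _ _ (by simp)]
    simp [Fin.prod_univ_four, Fin.prod_univ_three]
    rw [← inv_pow, C_pow]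
    ring
  rw [e, coeff_monomial]
  congr 1
  rw [eq_iff_iff]
  constructor
  · rintro rfl
    simp
  · rintro ⟨h0, h1, h2⟩
    ext i
    fin_cases i <;> simp [h0, h1, h2]

theorem EE_add (g h : R3) (a b : ℕ) : EE (g + h) a b = EE g a b + EE h a b := by
  unfold EE cf
  rw [← Finset.sum_add_distrib]
  apply Finset.sum_congr rfl
  intro j _
  split_ifs
  · rw [map_add, map_add, map_add, mul_add]
  · simp

theorem io_coeff (P : MvPolynomial (Fin 4) ℤ) (f : Fin 3 →₀ ℕ) :
    (2 : ℚ_[2]) ^ (f 1) * coeff f (io P) =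
      ((EE (PowerSeries.coeff (f 2) (pi4 P)) (f 0) (f 1) : ℤ_[2]) : ℚ_[2]) := by
  induction P using MvPolynomial.induction_on' with
  | monomial d a =>
    rw [io_monomial]
    unfold EE
    simp only [cf_pi4_monomial]
    by_cases h : f 0 = d 0 + d 2 ∧ f 1 = d 1 + d 2 ∧ f 2 = d 3
    · obtain ⟨h0, h1, h2⟩ := h
      rw [if_pos ⟨h0, h1, h2⟩]
      rw [Finset.sum_eq_single (d 1)]
      · rw [if_pos (by omega), if_pos ⟨by omega, rfl, by omega, h2⟩]
        rw [h1]
        push_cast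
        rw [show ((2 : ℤ_[2]) : ℚ_[2]) = 2 from rfl, pow_add, inv_pow]
        field_simp
      · intro b _ hb
        split_ifs with h3 h4
        · exact absurd h4.2.1 hb
        · simp
        · rfl
      · intro h3
        rw [mem_range, not_lt] at h3
        omega
    · rw [if_neg h, mul_zero]
      rw [Finset.sum_eq_zero]
      · simp
      · intro j hj
        rw [mem_range] at hj
        split_ifs with h3 h4
        · exfalso
          apply h
          omega
        · simp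
        · rfl
  | add p q hp hq =>
    rw [map_add, coeff_add, mul_add, hp, hq, map_add, map_add, EE_add]
    push_cast
    rfl

theorem io_bound (P : MvPolynomial (Fin 4) ℤ) (f : Fin 3 →₀ ℕ) :
    ‖coeff f (io P)‖ ≤ 2 ^ (f 1) := by
  have h := congrArg norm (io_coeff P f)
  rw [norm_mul, norm_pow] at h
  have h2 : ‖(2 : ℚ_[2])‖ = 2⁻¹ := by
    have := Padic.norm_p (p := 2)
    simpa using this
  rw [h2] at h
  have h3 : ‖((EE (PowerSeries.coeff (f 2) (pi4 P)) (f 0) (f 1) : ℤ_[2]) : ℚ_[2])‖ ≤ 1 :=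
    PadicInt.norm_le_one _
  rw [← h, inv_pow] at h3
  have h4 : (0 : ℝ) < 2 ^ (f 1) := by positivity
  rwa [inv_mul_le_iff₀ h4, mul_one] at h3

end Vale.Agent.P022.H693
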