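import Mathlib

namespace Vale.Agent.P022.H693

open Finset MvPowerSeries

theorem sq_lemma (a b : ℚ_[2]) (h : a ^ 2 = -4 * b ^ 2) : b = 0 := by
  by_contra hb
  set t : ℚ_[2] := a / (2 * b) with ht
  have h2 : t ^ 2 = -1 := by
    rw [ht, div_pow, h]
    field_simp
    norm_num
  have hn : ‖t‖ ^ 2 = 1 := by
    rw [← norm_pow, h2, norm_neg, norm_one]
  have hn1 : ‖t‖ ≤ 1 := by
    by_contra h3
    push Not at h3
    nlinarith
  let τ : ℤ_[2] := ⟨t, hn1⟩
  have hτ : τ ^ 2 = -1 := by
    apply Subtype.ext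
    push_cast
    exact h2
  have h4 := congrArg (PadicInt.toZModPow 2) hτ
  rw [map_pow, map_neg, map_one] at h4
  have : ∀ z : ZMod (2 ^ 2), z ^ 2 ≠ -1 := by decide
  exact this _ h4

theorem p4 (δ u s : MvPowerSeries (Fin 3) ℚ_[2]) (hδ : coeff 0 δ = -4) (h : u ^ 2 = δ * s ^ 2) :
    u = 0 ∧ s = 0 := by
  by_cases hs : s = 0
  · subst hs
    refine ⟨?_, rfl⟩
    simpa using h
  exfalso
  have hδ0 : δ ≠ 0 := by
    rintro rfl
    simp at hδ
  have hu : u ≠ 0 := by
    rintro rfl
    have : δ * s ^ 2 = 0 := by rw [← h]; ring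
    rcases mul_eq_zero.mp this with h1 | h1
    · exact hδ0 h1
    · exact hs (by simpa using h1)
  obtain ⟨p, hp⟩ := exists_finsupp_eq_lexOrder_of_ne_zero hu
  obtain ⟨q, hq⟩ := exists_finsupp_eq_lexOrder_of_ne_zero hs
  have hd : lexOrder δ = toLex (0 : Fin 3 →₀ ℕ) := by
    apply le_antisymm
    · apply lexOrder_le_of_coeff_ne_zero
      rw [hδ]; norm_num
    · rw [le_lexOrder_iff]
      intro d hd
      exfalso
      rw [WithTop.coe_lt_coe] at hd
      have : (⊥ : Lex (Fin 3 →₀ ℕ)) ≤ toLex d := bot_le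
      exact absurd hd (not_lt.mpr this)
  have h1 : lexOrder (u * u) = lexOrder (δ * (s * s)) := by
    rw [← sq, h, sq]
  rw [lexOrder_mul, lexOrder_mul, lexOrder_mul, hp, hq, hd] at h1
  have h2 : p + p = q + q := by
    have h3 : (toLex (p + p) : Lex (Fin 3 →₀ ℕ)) = toLex (0 + (q + q)) := by
      apply WithTop.coe_injective
      simpa using h1
    have := toLex.injective h3
    simpa using this
  have hpq : p = q := by
    ext i
    have := DFunLike.congr_fun h2 i
    simp at this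
    omega
  have hss : lexOrder (s * s) = toLex (q + q) := by
    rw [lexOrder_mul, hq]
    simp
  have e1 := coeff_mul_of_add_lexOrder hp hp
  have e2 := coeff_mul_of_add_lexOrder hd hss
  have e3 := coeff_mul_of_add_lexOrder hq hq
  have hc := coeff_ne_zero_of_lexOrder hq.symm
  apply hc
  apply sq_lemma (coeff p u)
  rw [sq, ← e1, ← sq, h, sq, sq, ← e3, ← hδ, ← e2, zero_add, hpq]

end Vale.Agent.P022.H693
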