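import Vale.Agent.P022.H693.Lim
import Vale.Agent.P022.H693.Ev
import Vale.Agent.P022.H693.Sq

namespace Vale.Agent.P022.H693

open Finset MvPolynomial

theorem e4_pi4 (D : Datum) (n : ℕ) (P : MvPolynomial (Fin 4) ℤ) :
    D.e4 n (pi4 P) = Ideal.Quotient.mk _ (aeval ![D.x, D.A, D.Cc, (D.w : D.T)] P) := by
  have : (D.e4 n).comp pi4 = (Ideal.Quotient.mk (Ideal.span {(2 : D.T) ^ n})).comp
      ((aeval ![D.x, D.A, D.Cc, (D.w : D.T)] : MvPolynomial (Fin 4) ℤ →ₐ[ℤ] D.T) :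
        MvPolynomial (Fin 4) ℤ →+* D.T) := by
    apply MvPolynomial.ringHom_ext
    · intro r; simp
    · intro i
      fin_cases i
      · simp [pi4]
        rw [Datum.e4, ev4_C, ev3_C, ev2_X]
      · simp [pi4]
        rw [Datum.e4, ev4_C, ev3_X]
      · simp [pi4]
        rw [Datum.e4, ev4_C, ev3_C, ev2_CX]
      · simp [pi4]
        rw [Datum.e4, ev4_X, map_intCast]
  exact RingHom.congr_fun this P

theorem pow3 (N t : ℕ) : (2 : ℤ) ^ N ∣ 3 ^ (2 ^ N * t) - 1 := by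
  induction N with
  | zero => simp
  | succ N ih =>
    have e : (3 : ℤ) ^ (2 ^ (N + 1) * t) - 1 = (3 ^ (2 ^ N * t) - 1) * (3 ^ (2 ^ N * t) + 1) := by
      have : 2 ^ (N + 1) * t = (2 ^ N * t) * 2 := by ring
      rw [this, pow_mul]; ring
    rw [e, pow_succ]
    apply mul_dvd_mul ih
    have h3 : Odd ((3 : ℤ) ^ (2 ^ N * t)) := Odd.pow (by decide)
    exact (h3.add_odd odd_one).two_dvd

theorem ring_main (T : ℕ → Type) [∀ k, CommRing (T k)]
    (tf : ∀ k, Odd k → ∀ a : T k, 2 * a = 0 → a = 0)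
    (x y A B C : ∀ k, T k)
    (hrel : ∀ k, Odd k → Rel (x k) (y k) (3 ^ (k - 1)) (A k) (B k) (C k))
    (nil : ∀ k, Odd k → ∃ N, 2 ∣ x k ^ N ∧ 2 ∣ A k ^ N ∧ 2 ∣ C k ^ N)
    (faith : ∀ (s : ℕ) (P : ℕ → ℕ → ℤ), (∀ k, 1 < k → k ≡ 1 [MOD 2 ^ (s + 1)] →
      ∀ N, 2 ∣ x k ^ N → 2 ∣ C k ^ N →
      2 ∣ ∑ p ∈ range N, ∑ q ∈ range N, (P p q : T k) * x k ^ p * C k ^ q) →
      ∀ p q, 2 ∣ P p q)
    (E : Type) [NontriviallyNormedField E] [NormedAlgebra ℚ_[2] E] [IsUltrametricDist E]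
    (X₀ Y Z a b c : E) (hX : ‖X₀‖ < 1) (ha : ‖a‖ < 1) (hc : ‖c‖ < 1) (hZ : ‖Z - 1‖ < 1)
    (hE : Rel X₀ Y Z a b c) (ε : ℝ) (hε : 0 < ε) :
    ∃ k0 n : ℕ, ∀ Q : MvPolynomial (Fin 6) ℤ,
      (∀ k < k0, Odd k → (2 : T k) ^ n ∣ aeval ![x k, y k, 3 ^ (k - 1), A k, B k, C k] Q) →
      ‖aeval ![X₀, Y, Z, a, b, c] Q‖ < ε := by
  by_contra hcon
  push Not at hcon
  choose Q hQ1 hQ2 using fun j : ℕ => hcon j j
  choose p q r hpqr using fun j => p0 (Q j)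
  choose N0 hN0 using nil
  let K : Type := {k : ℕ // Odd k ∧ 1 < k}
  let D : K → Datum := fun k =>
    { T := T k.1
      tf := tf k.1 k.2.1
      x := x k.1
      A := A k.1
      Cc := C k.1
      w := 3 ^ (k.1 - 1) - 1
      hw := by
        have h1 : (1 : ℤ) < 3 ^ (k.1 - 1) := one_lt_pow₀ (by norm_num) (by have := k.2.2; omega)
        omega
      hw2 := by
        have h3 : Odd ((3 : ℤ) ^ (k.1 - 1)) := Odd.pow (by decide)
        exact (h3.sub_odd odd_one).two_dvd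
      rel := by rw [(hrel k.1 k.2.1).r1, mul_comm]
      N0 := N0 k.1 k.2.1
      hx := (hN0 k.1 k.2.1).1
      hA := (hN0 k.1 k.2.1).2.1
      hC := (hN0 k.1 k.2.1).2.2 }
  let P : ℕ → MvPolynomial (Fin 4) ℤ := fun j => 2 * p j
  let P' : ℕ → MvPolynomial (Fin 4) ℤ := fun j => 2 * q j + X 1 * r j
  let δ : MvPolynomial (Fin 4) ℤ := X 0 ^ 2 - 4 * (1 + X 3)
  let g : ℕ → MvPolynomial (Fin 4) ℤ := fun j => P j ^ 2 - P' j ^ 2 * δ
  have hlin : ∀ j (S : Type) [CommRing S] (x y z A B C : S), Rel x y z A B C →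
      2 * aeval ![x, y, z, A, B, C] (Q j) = aeval ![x, A, C, z - 1] (P j) +
        aeval ![x, A, C, z - 1] (P' j) * y := by
    intro j S _ x y z A B C h
    rw [hpqr j S x y z A B C h]
    simp only [P, P', map_mul, map_add, map_ofNat, aeval_X]
    simp only [Matrix.cons_val_one, Matrix.cons_val_zero]
    linear_combination (aeval ![x, A, C, z - 1] (r j)) * h.r2
  have hsq : ∀ j (S : Type) [CommRing S] (x y z A B C : S), Rel x y z A B C →
      aeval ![x, A, C, z - 1] (g j) = (2 * aeval ![x, y, z, A, B, C] (Q j)) *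
        (aeval ![x, A, C, z - 1] (P j) - aeval ![x, A, C, z - 1] (P' j) * y) := by
    intro j S _ x y z A B C h
    rw [hlin j S x y z A B C h]
    have e : aeval ![x, A, C, z - 1] δ = x ^ 2 - 4 * z := by
      simp only [δ, map_sub, map_mul, map_add, map_pow, map_ofNat, map_one, aeval_X]
      simp
    simp only [g, map_sub, map_mul, map_pow, e]
    linear_combination (aeval ![x, A, C, z - 1] (P' j)) ^ 2 * h.r3
  set 𝓤 : Ultrafilter ℕ := Filter.hyperfilter ℕ with h𝓤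
  have hcof : ∀ n : ℕ, ∀ᶠ j in (𝓤 : Filter ℕ), n ≤ j := by
    intro n
    have h1 : (𝓤 : Filter ℕ) ≤ Filter.cofinite := Filter.hyperfilter_le_cofinite
    rw [Nat.cofinite_eq_atTop] at h1
    exact h1 (Filter.eventually_ge_atTop n)
  obtain ⟨G, hG⟩ := lim_R4 𝓤 (fun j => pi4 (g j))
  have hG0 : ∀ k ∈ (Set.univ : Set K), ∀ n, (D k).e4 n G = 0 := by
    intro k _ n
    apply e4_lim 𝓤 (D k) n _ G hG
    filter_upwards [hcof n, hcof (k.1 + 1)] with j hj1 hj2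
    rw [e4_pi4, Ideal.Quotient.eq_zero_iff_mem, Ideal.mem_span_singleton]
    have h1 := hsq j (T k.1) (x k.1) (y k.1) (3 ^ (k.1 - 1)) (A k.1) (B k.1) (C k.1)
      (hrel k.1 k.2.1)
    have h2 : aeval ![(D k).x, (D k).A, (D k).Cc, ((D k).w : (D k).T)] (g j) =
        aeval ![x k.1, A k.1, C k.1, 3 ^ (k.1 - 1) - 1] (g j) := by
      have : ((D k).w : (D k).T) = (3 ^ (k.1 - 1) - 1 : T k.1) := by
        change (((3 ^ (k.1 - 1) - 1 : ℤ)) : T k.1) = _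
        push_cast; rfl
      rw [this]
    rw [h2, h1]
    apply Dvd.dvd.mul_right
    apply Dvd.dvd.mul_left
    exact (pow_dvd_pow _ hj1).trans (hQ1 j k.1 (by omega) k.2.1)
  have hlow : ∀ m a b, EE (PowerSeries.coeff m G) a b = 0 := by
    intro m
    refine low D Set.univ (fun N => {k : K | k.1 ≡ 1 [MOD 2 ^ (N + 1)]}) (fun _ _ _ => trivial)
      ?_ ?_ m G hG0
    · intro N R hR
      apply faith N R
      intro k hk1 hk2 M hM1 hM2
      have hodd : Odd k := by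
        have h1 : k ≡ 1 [MOD 2] := hk2.of_dvd (dvd_pow_self 2 (by omega))
        exact Nat.odd_iff.mpr h1
      exact hR ⟨k, hodd, hk1⟩ hk2 M hM1 hM2
    · intro N k hk
      change (2 : ℤ) ^ N ∣ 3 ^ (k.1 - 1) - 1
      have hk' : k.1 ≡ 1 [MOD 2 ^ (N + 1)] := hk
      have h1 : 2 ^ (N + 1) ∣ k.1 - 1 := (Nat.modEq_iff_dvd' (by have := k.2.2; omega)).mp hk'.symm
      obtain ⟨t, ht⟩ := h1
      rw [ht, show 2 ^ (N + 1) * t = 2 ^ N * (2 * t) by ring]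
      exact pow3 N _
  obtain ⟨u, hu⟩ := lim_ps 𝓤 (fun j => (io (P j) : MvPowerSeries (Fin 3) ℚ_[2]))
    (fun f => 2 ^ (f 1)) (fun f n => by rw [MvPolynomial.coeff_coe]; exact io_bound _ _)
  obtain ⟨s, hs⟩ := lim_ps 𝓤 (fun j => (io (P' j) : MvPowerSeries (Fin 3) ℚ_[2]))
    (fun f => 2 ^ (f 1)) (fun f n => by rw [MvPolynomial.coeff_coe]; exact io_bound _ _)
  have hlim : ∀ f, Filter.Tendsto (fun j => MvPowerSeries.coeff f
      ((io (P j) : MvPowerSeries (Fin 3) ℚ_[2]) * (io (P j) : MvPowerSeries (Fin 3) ℚ_[2])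
        - (io δ : MvPowerSeries (Fin 3) ℚ_[2]) * ((io (P' j) : MvPowerSeries (Fin 3) ℚ_[2]) *
          (io (P' j) : MvPowerSeries (Fin 3) ℚ_[2])))) 𝓤
      (nhds (MvPowerSeries.coeff f (u * u - (io δ : MvPowerSeries (Fin 3) ℚ_[2]) * (s * s)))) := by
    intro f
    simp only [map_sub]
    apply Filter.Tendsto.sub
    · exact tendsto_mul_ps 𝓤 _ _ u u hu hu f
    · exact tendsto_mul_ps 𝓤 (fun _ => (io δ : MvPowerSeries (Fin 3) ℚ_[2])) _ _ _
        (fun _ => tendsto_const_nhds) (tendsto_mul_ps 𝓤 _ _ s s hs hs) f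
  have hlim0 : ∀ f, Filter.Tendsto (fun j => MvPowerSeries.coeff f
      ((io (P j) : MvPowerSeries (Fin 3) ℚ_[2]) * (io (P j) : MvPowerSeries (Fin 3) ℚ_[2])
        - (io δ : MvPowerSeries (Fin 3) ℚ_[2]) * ((io (P' j) : MvPowerSeries (Fin 3) ℚ_[2]) *
          (io (P' j) : MvPowerSeries (Fin 3) ℚ_[2])))) 𝓤 (nhds 0) := by
    intro f
    have e1 : (fun j => MvPowerSeries.coeff f
      ((io (P j) : MvPowerSeries (Fin 3) ℚ_[2]) * (io (P j) : MvPowerSeries (Fin 3) ℚ_[2])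
        - (io δ : MvPowerSeries (Fin 3) ℚ_[2]) * ((io (P' j) : MvPowerSeries (Fin 3) ℚ_[2]) *
          (io (P' j) : MvPowerSeries (Fin 3) ℚ_[2])))) = fun j => ((2 : ℚ_[2]) ^ (f 1))⁻¹ *
        ((EE (PowerSeries.coeff (f 2) (pi4 (g j))) (f 0) (f 1) : ℤ_[2]) : ℚ_[2]) := by
      ext j
      rw [← io_coeff, inv_mul_cancel_left₀ (pow_ne_zero _ (by norm_num)),
        ← MvPolynomial.coeff_coe]
      congr 1
      simp only [← MvPolynomial.coeToMvPowerSeries.ringHom_apply, g, map_sub, map_mul, map_pow]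
      ring
    rw [e1]
    have h1 := tendsto_EE 𝓤 (fun j => PowerSeries.coeff (f 2) (pi4 (g j)))
      (PowerSeries.coeff (f 2) G) (fun i j l => hG i j l (f 2)) (f 0) (f 1)
    rw [hlow] at h1
    have h2 : Filter.Tendsto (fun j => ((EE (PowerSeries.coeff (f 2) (pi4 (g j))) (f 0) (f 1) :
        ℤ_[2]) : ℚ_[2])) 𝓤 (nhds ((0 : ℤ_[2]) : ℚ_[2])) :=
      (continuous_subtype_val.tendsto _).comp h1
    have h3 := h2.const_mul (((2 : ℚ_[2]) ^ (f 1))⁻¹)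
    simpa using h3
  have heq : u ^ 2 = (io δ : MvPowerSeries (Fin 3) ℚ_[2]) * s ^ 2 := by
    rw [sq, sq, ← sub_eq_zero]
    ext f
    rw [map_zero]
    exact tendsto_nhds_unique (hlim f) (hlim0 f)
  have hδ : MvPowerSeries.coeff 0 (io δ : MvPowerSeries (Fin 3) ℚ_[2]) = -4 := by
    rw [MvPolynomial.coeff_coe, ← MvPolynomial.constantCoeff_eq]
    have h4 : constantCoeff (4 : MvPolynomial (Fin 3) ℚ_[2]) = 4 := map_ofNat _ _
    simp [δ, io, h4]
  obtain ⟨rfl, rfl⟩ := p4 _ u s hδ heq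
  have hε' : 0 < ε / 4 / (1 + ‖Y‖) := by positivity
  have hc' : 2 * c = a * X₀ := hE.r1
  have ev1 := ev_small hX ha hc hZ hc' 𝓤 P (fun f => by
    have := hu f
    simpa using this) _ hε'
  have ev2 := ev_small hX ha hc hZ hc' 𝓤 P' (fun f => by
    have := hs f
    simpa using this) _ hε'
  obtain ⟨j, hj1, hj2⟩ := (ev1.and ev2).exists
  have h1 := congrArg norm (hlin j E X₀ Y Z a b c hE)
  rw [norm_mul, norm_two] at h1
  have h2 : ‖aeval ![X₀, a, c, Z - 1] (P j) + aeval ![X₀, a, c, Z - 1] (P' j) * Y‖ ≤ ε / 4 := by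
    calc _ ≤ ‖aeval ![X₀, a, c, Z - 1] (P j)‖ + ‖aeval ![X₀, a, c, Z - 1] (P' j) * Y‖ :=
          norm_add_le _ _
      _ ≤ ε / 4 / (1 + ‖Y‖) + ε / 4 / (1 + ‖Y‖) * ‖Y‖ := by
          rw [norm_mul]
          gcongr
      _ = ε / 4 := by field_simp
  have h3 := hQ2 j
  linarith

end Vale.Agent.P022.H693
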